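import Vale.Agent.P144E.Basic
import Vale.Agent.P144D.B.Gap

/-! Rough boundaries: the spectral gap. -/

namespace Vale.Agent.P144Z

open Finset Matrix

namespace Ge1b

open B3b

variable {M : ℕ} [NeZero M]

theorem flat_rgh {R : Reg M} {B : Gauge M} {N r : ℕ} (h : Rgh R.In N r) (hB : Str R.pw B r)
    {z : Tor M} {d ρ : ℕ} (hz : NearB R.In d z) (hρ : d + ρ + 2 * N ≤ r) : Flat B z ρ := by
  intro f hf
  refine (GeoA.flux_sign hB.sign f).resolve_right fun hfl => ?_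
  obtain ⟨⟨g, g1, g2⟩, g', g3, g4⟩ := hz
  have t1 := tdist_triangle g z f
  have t2 := tdist_triangle g' z f
  rw [tdist_comm z f] at t1 t2
  rcases hB.fl f hfl with h1 | h1
  · obtain ⟨x, x1, x2⟩ := h.cork g' g3 1 (by omega)
    have t3 := tdist_triangle x g' f
    have h3 := h1 (x, 0) (by simp only; omega)
    have h4 : x ∉ R.In := x2 x (by rw [tdist_self]; omega)
    have h5 : oth (x, (0 : Fin 2)) ∉ R.In := x2 _ (GeoA.tdist_sub_uv x _)
    cases hfr : R.fr <;> simp [Reg.pw, hfr, h4, h5, GeoA.tT_ne.2] at h3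
  · have h3 := h1 (g, 0) (by simp only; omega)
    cases hfr : R.fr
    · simp [Reg.pw, hfr, g1] at h3
    · simp only [Reg.pw, hfr, if_true] at h3
      split_ifs at h3
      · exact one_ne_zero h3
      · exact GeoA.tT_ne.1 h3

theorem card_tiles {β : Type} [DecidableEq β] {X : Finset β} (n N : ℕ) (Y : ℕ → Finset β)
    (hY : ∀ a, (Y a).card ≤ N) (h : ∀ x ∈ X, ∃ a ∈ range n, x ∈ Y a) :
    X.card ≤ n * (N + 1) := by
  have := card_biUnion_le_card_mul (range n) Y (N + 1) fun a _ => (hY a).trans (Nat.le_succ N)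
  rw [card_range] at this
  exact (card_le_card fun x hx => mem_biUnion.2 (h x hx)).trans this

theorem tr_rgh {I : Finset (Tor M)} {N r : ℕ} (h : Rgh I N r) (hr : 2 ≤ r) {T Λ : ℕ}
    (hI : ∀ f ∈ I, tdist f 0 ≤ T) (hΛ : T ≤ Λ * r) (z : Tor M) (ρ : ℕ) :
    TrB I z ρ (4 * (Λ + 1) * (N + 1)) := by
  classical
  obtain ⟨ix, c, hc⟩ := B5a2.exists_tiles (M := M) (q := r) (T := T + 2) (n := 4 * (Λ + 1))
    (by omega) (by nlinarith)
  choose H V h1 h2 h3 using fun a b => h.tr (c a b)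
  obtain ⟨Hs, hH⟩ : ∃ Hs : Finset (Tor M), ∀ x, x ∈ Hs ↔
      ∃ a ∈ range (4 * (Λ + 1)), x ∈ H a (ix x.2) :=
    ⟨univ.filter _, fun x => mem_filter.trans (and_iff_right (mem_univ x))⟩
  obtain ⟨Vs, hV⟩ : ∃ Vs : Finset (Tor M), ∀ x, x ∈ Vs ↔
      ∃ b ∈ range (4 * (Λ + 1)), x ∈ V (ix x.1) b :=
    ⟨univ.filter _, fun x => mem_filter.trans (and_iff_right (mem_univ x))⟩
  refine ⟨Hs, Vs, fun x _ hn => ?_, fun t => ?_, fun t => ?_⟩
  · obtain ⟨f, hf, hfx⟩ := hn.1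
    have a1 := tdist_triangle x f 0
    have a2 := hI f hf
    rw [tdist_comm x f] at a1
    obtain ⟨b1, b3, a3⟩ := hc x (by omega)
    exact (h1 _ _ x a3 hn).imp (fun e => (hH x).2 ⟨_, mem_range.2 b1, e⟩)
      fun e => (hV x).2 ⟨_, mem_range.2 b3, e⟩
  · refine card_tiles (4 * (Λ + 1)) N (fun a => (H a (ix t)).filter fun x => x.2 = t)
      (fun a => h2 a _ t) fun x hx => ?_
    obtain ⟨h4, h5⟩ := mem_filter.1 hx
    obtain ⟨a, ha, e⟩ := (hH x).1 h4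
    exact ⟨a, ha, mem_filter.2 ⟨h5 ▸ e, h5⟩⟩
  · refine card_tiles (4 * (Λ + 1)) N (fun b => (V (ix t) b).filter fun x => x.1 = t)
      (fun b => h3 _ b t) fun x hx => ?_
    obtain ⟨h4, h5⟩ := mem_filter.1 hx
    obtain ⟨a, ha, e⟩ := (hV x).1 h4
    exact ⟨a, ha, mem_filter.2 ⟨h5 ▸ e, h5⟩⟩

theorem gap_ofW (hE : ExtS) (hR : RelS) : GapW := by
  classical
  intro N Λ
  obtain ⟨Cc, hCc, hc⟩ := core hE hR
  obtain ⟨Ce, hCe, he⟩ := ext_F hE
  obtain ⟨Ct, hCt, ht⟩ := trace_est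
  obtain ⟨K, hK, hk⟩ := test_fn Λ
  obtain ⟨Q, hQ, e1⟩ : ∃ Q : ℝ, 1 ≤ Q ∧ Q = Ct * (4 * (Λ + 1) * (N + 1) : ℕ) :=
    ⟨_, one_le_mul_of_one_le_of_one_le hCt (by
      exact_mod_cast (Nat.succ_le_of_lt (by positivity))), rfl⟩
  have c1 : 1 ≤ Q * K := one_le_mul_of_one_le_of_one_le hQ hK
  obtain ⟨Γ, hΓ, e2⟩ : ∃ Γ : ℝ, 1 ≤ Γ ∧ Γ = 2 * (Cc * (Q * K)) ^ 2 * (2 + 288 * Ce) + 18 * Ce :=
    ⟨_, by
      have : 0 ≤ 2 * (Cc * (Q * K)) ^ 2 * (2 + 288 * Ce) := by positivity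
      linarith, rfl⟩
  refine ⟨Γ, hΓ, 256 + 4 * N, fun M _ R B T r hS hB hI hO h0 h2 h3 h4 φ t hφ htt => ?_⟩
  have h1 : 256 ≤ r := by omega
  have hfl := fl_in hB (by omega)
  have hT1 : (1 : ℝ) ≤ T := by exact_mod_cast (by omega : 1 ≤ T)
  set F := Dm (R.pw * B) *ᵥ φ - ∑ f, t f • cnr f with hFd
  set ζ : Tor M × Fin 4 → ℝ := fun s => if tdist s.1 0 ≤ T + 1 then φ s else 0 with hζd
  have hζ : SuppIn ζ 0 (T + 1) := fun s hs => if_neg (by omega)
  have hE0 := E5.l2sq_nonneg univ F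
  have o1 : l2sq univ (φ - ζ) ≤ 9 * Ce * l2sq univ F := by
    have k1 := mul_le_mul_of_nonneg_left (sum_balls 1 F) (zero_le_one.trans hCe)
    rw [mul_sum] at k1
    refine (sum_le_sum fun x _ => ?_).trans (k1.trans (le_of_eq (by push_cast; ring)))
    by_cases hx : tdist x 0 ≤ T + 1
    · simpa [hζd, hx] using mul_nonneg (zero_le_one.trans hCe) (E5.l2sq_nonneg (ball x 1) F)
    · have k2 := he M R B hB.sign
        (fun hfr f hf => (hfl hfr f hf f (by rw [tdist_self]; omega)).1) φ F t htt hFd x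
        fun f hf hm => by
          have a1 := hI f hm
          have a2 := tdist_triangle x f 0
          rw [tdist_comm x f] at a2
          omega
      simpa [hζd, hx, l2sq] using k2
  have o2 : l2sq univ (Dm (R.pw * B) *ᵥ (φ - ζ)) ≤ 16 * l2sq univ (φ - ζ) := by
    rw [E1.l2sq_univ, E1.l2sq_univ]
    exact (W.isD_Dm (isW_mul R hB.sign)).le _
  have o3 := E5.l2sq_sub_le univ F (Dm (R.pw * B) *ᵥ (φ - ζ))
  have o4 := E5.l2sq_add_le univ ζ (φ - ζ)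
  rw [add_sub_cancel] at o4
  obtain ⟨g, g', g1, g2, g3, g4, g5, g6⟩ := hk M B T r (cluster_of hB hO) h1 h2 h3 h4 ζ hζ
  have hN := E5.l2sq_nonneg univ ζ
  have k0 : K * T ≤ Q * K * T :=
    mul_le_mul_of_nonneg_right (le_mul_of_one_le_left (by linarith) hQ) (by linarith)
  have h := hc M R B hB.sign (by omega) hfl ζ (F - Dm (R.pw * B) *ᵥ (φ - ζ)) t
    (fun hfr f hf => ?_) htt (by rw [hFd, mulVec_sub]; abel) g (Q * K * T)
    (univ.filter fun x => NearB R.In 2 x) (one_le_mul_of_one_le_of_one_le c1 hT1) g1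
    (g2.trans (by gcongr)) (fun s h1 h2 => absurd (mem_filter.2 ⟨mem_univ _, h1⟩) h2) ?_
    ((g3 t fun f hf => (htt f hf).2).trans (mul_le_mul_of_nonneg_left (by gcongr)
      (sum_nonneg fun _ _ => sq_nonneg _)))
  · have k1 : l2sq univ ζ ≤ (Cc * (Q * K * T)) ^ 2 * ((2 + 288 * Ce) * l2sq univ F) :=
      h.trans (mul_le_mul_of_nonneg_left (by linarith) (sq_nonneg _))
    have k2 : 18 * Ce * l2sq univ F ≤ 18 * Ce * l2sq univ F * T ^ 2 :=
      le_mul_of_one_le_right (by positivity) (one_le_pow₀ hT1)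
    calc _ ≤ Γ * T ^ 2 * l2sq univ F := by rw [e2]; linarith
      _ ≤ Γ ^ 2 * T ^ 2 * l2sq univ F := by gcongr; nlinarith
      _ = _ := by ring
  · have k1 := hI f (hfl hfr f hf f (by rw [tdist_self]; omega)).1
    rw [← hφ hfr f hf, E5.cnr_dot, E5.cnr_dot]
    simp only [hζd, if_pos (k1.trans (Nat.le_succ T))]
  · rw [E5.l2sq_congr (g := g') fun s hs =>
      g6 s (flat_rgh hS hB (mem_filter.1 hs).2 (by omega))]
    refine (ht M R.In B hB.sign 0 M _ _ (by omega)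
      (tr_rgh hS (by omega) hI h3 0 M) g' g4 _ fun x hx =>
        ⟨by have := tdist_le x 0; omega, (mem_filter.1 hx).2⟩).trans ?_
    rw [← e1]
    exact (mul_le_mul_of_nonneg_left g5 (by linarith)).trans (le_of_eq (by ring))

end Ge1b

theorem gapW : GapW := Ge1b.gap_ofW ext_est rellich

end Vale.Agent.P144Z
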